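import Vale.Agent.P251EJ.DefsA
import Vale.Agent.P221X.EXI.Gam
import Vale.Agent.P221X.EXQ.Defs
import Vale.Agent.P221.H746.Kap

/-!
# P251EJ: existence of the Johnson-Wilson spectra, the blocks S, B, G
-/

open CategoryTheory MonoidalCategory MonObj Limits Pretriangulated

set_option linter.unusedSectionVars false

universe u

noncomputable section

namespace Vale.Agent.P251EJ

open Vale.Agent.P251 Vale.Agent.P251.S Vale.Agent.P251.T Vale.Agent.P251.M Vale.Agent.P251.F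
  Vale.Agent.P251.I EvenSpheres Vale.Agent.P257.H80 Vale.Agent.P221.H246 Vale.Agent.P221.T
  Vale.Agent.P221.T.H520 Vale.Agent.P093.Nak Vale.Agent.P093.N0 Vale.Agent.P221X.EXI

variable (𝒯 : Type u) [Category.{0} 𝒯] [Preadditive 𝒯] [HasZeroObject 𝒯]
    [HasShift 𝒯 ℤ] [∀ n : ℤ, (shiftFunctor 𝒯 n).Additive] [Pretriangulated 𝒯] [IsTriangulated 𝒯]
    [MonoidalCategory 𝒯] [SymmetricCategory 𝒯] [TensorTriangulated 𝒯] [MonoidalClosed 𝒯]
    [HasCoproducts.{0} 𝒯] [HasProducts.{0} 𝒯] [StableCat 𝒯]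

/-- block S: the positive stable stems are torsion groups -/
def Serre : Prop :=
  ∀ k : ℤ, 0 < k → ∀ f : (𝟙_ 𝒯)⟦k⟧ ⟶ 𝟙_ 𝒯, ∃ m : ℤ, m ≠ 0 ∧ m • f = 0

/-- block B, odd part -/
def OddB : Prop :=
  ∀ (F : SpaceFunctor 𝒯) (e : F.S.obj CCF ≅ (stdEven 𝒯).L) (D : MUData 𝒯) (p : ℕ) [Fact p.Prime]
    (B : 𝒯) [MonObj B] [IsCommMonObj B] (b : D.R ⟶ B) [IsMonHom b],
    Serre 𝒯 → MUUniv e D → MUAll D → IsBPMon p b → OddZero B

/-- block B, even part: `π_{2*} BP = ℤ_(p)[v_1, v_2, …]` -/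
def EvenB : Prop :=
  ∀ (F : SpaceFunctor 𝒯) (e : F.S.obj CCF ≅ (stdEven 𝒯).L) (D : MUData 𝒯) (p : ℕ) [Fact p.Prime]
    (B : 𝒯) [MonObj B] [IsCommMonObj B] (b : D.R ⟶ B) [IsMonHom b] (hb : IsBPMon p b)
    (Φ : MvPolynomial ℕ ℤ →+* HRing (stdEven 𝒯) B),
    Serre 𝒯 → MUUniv e D → MUAll D → lawOf b = (haz p).map Φ →
      Function.Bijective (PhiT (ell hb) Φ)

variable {𝒯}

/-- The realization `G` of the graded `π_* B`-algebra `A`: an even commutative monoid under `B` with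
`π_* G = A`, whose monoid endomorphisms are the pairs of a monoid map `B ⟶ G` and a compatible
homomorphism of graded rings. -/
structure GD (B : 𝒯) [MonObj B] [IsCommMonObj B] {A : Type} [CommRing A] (H : ℤ → AddSubgroup A)
    (lam : HRing (stdEven 𝒯) B →+* A) where
  G : 𝒯
  [mon : MonObj G]
  [comm : IsCommMonObj G]
  inc : B ⟶ G
  [hinc : IsMonHom inc]
  Ψ : A →+* HRing (stdEven 𝒯) G
  bij : Function.Bijective Ψ
  Ψ_mem : ∀ d, ∀ a ∈ H d, IsHomog G d (Ψ a)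
  Ψ_lam : ∀ c, Ψ (lam c) = HRing.map (E := stdEven 𝒯) inc c
  odd : OddZero G
  univ : ∀ (f : B ⟶ G) [IsMonHom f] (σ : A →+* HRing (stdEven 𝒯) G),
    (∀ d, ∀ a ∈ H d, IsHomog G d (σ a)) → (∀ c, σ (lam c) = HRing.map (E := stdEven 𝒯) f c) →
    ∃ (e : G ⟶ G) (_ : IsMonHom e), inc ≫ e = f ∧ ∀ a, HRing.map (E := stdEven 𝒯) e (Ψ a) = σ a
  uniq : ∀ (e e' : G ⟶ G) [IsMonHom e] [IsMonHom e'], inc ≫ e = inc ≫ e' →
    (∀ y, HRing.map (E := stdEven 𝒯) e y = HRing.map (E := stdEven 𝒯) e' y) → e = e'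

attribute [instance] GD.mon GD.comm GD.hinc

variable (𝒯) in
/-- block HS: the realization exists -/
def HS : Prop :=
  ∀ (B : 𝒯) [MonObj B] [IsCommMonObj B] (J : Type) (_ : RBasis (stdEven 𝒯) B B J) (A : Type)
    [CommRing A] (H : ℤ → AddSubgroup A) [GradedRing H] (lam : HRing (stdEven 𝒯) B →+* A),
    OddZero B → (∀ d c, IsHomog B d c → lam c ∈ H d) → Pres (IsHomog B) H lam →
      Nonempty (GD B H lam)

/-- The Johnson-Wilson monoid `E(n+1)`, library level. -/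
structure JWMon {D : MUData 𝒯} (p n : ℕ) [Fact p.Prime] {E : 𝒯} [MonObj E] [IsCommMonObj E]
    (u : D.R ⟶ E) [IsMonHom u] (Φ : MvPolynomial ℕ ℤ →+* HRing (stdEven 𝒯) E) : Prop where
  loc : LocO p E
  law : lawOf u = (haz p).map Φ
  odd : OddZero E
  unit : IsUnit (Φ (MvPolynomial.X n))
  gen : ∀ y : HRing (stdEven 𝒯) E, ∃ (m : ℤ) (j : ℕ) (x : MvPolynomial ℕ ℤ), ¬ (p : ℤ) ∣ m ∧
    Φ (MvPolynomial.X n) ^ j * ((m : HRing (stdEven 𝒯) E) * y) = Φ x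
  ker : ∀ x, Φ x = 0 ↔ x ∈ Ideal.span (MvPolynomial.X '' {j | n < j})

variable (𝒯) in
/-- row TRA: transport of the presentation along `K0 p ≅ π_{2*} B` -/
def TraG : Prop :=
  ∀ (D : MUData 𝒯) (p : ℕ) [Fact p.Prime] (n : ℕ) (B : 𝒯) [MonObj B] [IsCommMonObj B]
    (b : D.R ⟶ B) [IsMonHom b] (hb : IsBPMon p b) (Φ : MvPolynomial ℕ ℤ →+* HRing (stdEven 𝒯) B)
    (X : AD p n), lawOf b = (haz p).map Φ → Function.Bijective (PhiT (ell hb) Φ) →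
    ∃ lam : HRing (stdEven 𝒯) B →+* X.A,
      (∀ c, lam (PhiT (ell hb) Φ c) = X.q (MvPolynomial.C c)) ∧
      (∀ d c, IsHomog B d c → lam c ∈ X.H d) ∧ Nonempty (Pres (IsHomog B) X.H lam)

variable (𝒯) in
/-- row IDEM: the idempotent with `e_* = η ∘ ε` and its image -/
def IdemG : Prop :=
  ∀ (F : SpaceFunctor 𝒯) (e : F.S.obj CCF ≅ (stdEven 𝒯).L) (D : MUData 𝒯) (p : ℕ) [Fact p.Prime]
    (n : ℕ) (B : 𝒯) [MonObj B] [IsCommMonObj B] (b : D.R ⟶ B) [IsMonHom b] (hb : IsBPMon p b)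
    (Φ : MvPolynomial ℕ ℤ →+* HRing (stdEven 𝒯) B) (X : AD p n)
    (lam : HRing (stdEven 𝒯) B →+* X.A) (_ : GD B X.H lam),
    MUUniv e D → lawOf b = (haz p).map Φ → Function.Bijective (PhiT (ell hb) Φ) →
    (∀ c, lam (PhiT (ell hb) Φ c) = X.q (MvPolynomial.C c)) →
    ∃ (E : 𝒯) (_ : MonObj E) (_ : IsCommMonObj E) (u : D.R ⟶ E) (_ : IsMonHom u)
      (Φ' : MvPolynomial ℕ ℤ →+* HRing (stdEven 𝒯) E), JWMon p n u Φ'

end Vale.Agent.P251EJ
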