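import Vale.Agent.P221X.EXI.AlgE
import Mathlib.RingTheory.RingHom.Flat
import Mathlib.RingTheory.GradedAlgebra.Basic
import Mathlib.RingTheory.Localization.Away.Basic

/-!
# P251EJ: existence of the Johnson-Wilson spectra, the algebraic definitions

`X i` is `v_{i+1}`; `AA p n = BP_* BP / (η v_{n+2}, η v_{n+3}, …)[(η v_{n+1})⁻¹] = BP_* E(n+1)`.
All degrees are halves of the topological degrees (`HG p (2 * d)` is degree `d`).
-/

open MvPolynomial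

noncomputable section

namespace Vale.Agent.P251EJ

open Vale.Agent.P221.T Vale.Agent.P221.T.H520

/-- `A` is the colimit of a sequence of finite graded free `R`-modules with bases `I i`, transition
matrices `M i` and images `g i a` of the basis elements. -/
structure Pres {R A : Type} [CommRing R] [CommRing A] (hR : ℤ → R → Prop) (H : ℤ → AddSubgroup A)
    (lam : R →+* A) where
  I : ℕ → Type
  [fin : ∀ i, Fintype (I i)]
  deg : ∀ i, I i → ℤ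
  M : ∀ i, I i → I (i + 1) → R
  M_hom : ∀ i a b, hR (deg i a - deg (i + 1) b) (M i a b)
  g : ∀ i, I i → A
  g_mem : ∀ i a, g i a ∈ H (deg i a)
  g_succ : ∀ i a, g i a = ∑ b, lam (M i a b) * g (i + 1) b
  exh : ∀ d, ∀ x ∈ H d, ∃ (i : ℕ) (c : I i → R), (∀ a, hR (d - deg i a) (c a)) ∧
    x = ∑ a, lam (c a) * g i a
  kill : ∀ (i : ℕ) (c : ∀ j, I j → R), (∀ j, i ≤ j → ∀ b, c (j + 1) b = ∑ a, c j a * M j a b) →
    ∑ a, lam (c i a) * g i a = 0 → ∃ j, i ≤ j ∧ c j = 0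

attribute [instance] Pres.fin

/-- row LAZ: Lazard's theorem, countable graded form -/
def Lazard : Prop :=
  ∀ (R A : Type) [CommRing R] [CommRing A] [Countable R] [Countable A] (𝓡 : ℤ → AddSubgroup R)
    [GradedRing 𝓡] (H : ℤ → AddSubgroup A) [GradedRing H] (lam : R →+* A),
    (∀ d, ∀ r ∈ 𝓡 d, lam r ∈ H d) → lam.Flat → Nonempty (Pres (fun d r => r ∈ 𝓡 d) H lam)

variable (p : ℕ) [hp : Fact p.Prime]

/-- half of the degree of `v_{i+1}` -/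
def wz (i : ℕ) : ℤ := ((p ^ (i + 1) - 1 : ℕ) : ℤ)

/-- homogeneous elements of `ℤ_(p)[v_1, v_2, …]` -/
def hK (d : ℤ) (c : K0 p) : Prop := c.IsWeightedHomogeneous (wz p) d

/-- the right unit on `ℤ[v_1, v_2, …]` -/
def etaZ : MvPolynomial ℕ ℤ →+* G0 p := eval₂Hom (Int.castRingHom (G0 p)) (eta0 p)

/-- The algebraic input of the construction of `E(n+1)`: `A = BP_* E(n+1)`, `τ = η ∘ ε`. -/
structure AD (n : ℕ) where
  A : Type
  [ring : CommRing A]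
  H : ℤ → AddSubgroup A
  [gr : GradedRing H]
  q : G0 p →+* A
  q_mem : ∀ (d : ℤ) (x : G0 p), HG p (2 * d) x → q x ∈ H d
  τ : A →+* A
  τ_mem : ∀ d, ∀ a ∈ H d, τ a ∈ H d
  τ_C : ∀ i, τ (q (C (X i))) = q (eta0 p i)
  τ_X : ∀ k, τ (q (X k)) = 0
  τ_τ : ∀ a, τ (τ a) = τ a
  unit : IsUnit (q (eta0 p n))
  gen : ∀ a, ∃ (m : ℤ) (j : ℕ) (x : MvPolynomial ℕ ℤ), ¬ (p : ℤ) ∣ m ∧
    q (eta0 p n) ^ j * ((m : A) * τ a) = q (etaZ p x)
  ker : ∀ x, q (etaZ p x) = 0 ↔ x ∈ Ideal.span (X '' {j | n < j})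
  pres : Pres (hK p) H (q.comp C)

attribute [instance] AD.ring AD.gr

/-! ### the concrete ring -/

/-- the ideal `(η v_{n+2}, η v_{n+3}, …)` -/
def JJ (n : ℕ) : Ideal (G0 p) := Ideal.span (eta0 p '' {j | n < j})

/-- `(R / J)[w⁻¹]` -/
abbrev QL {R : Type} [CommRing R] (J : Ideal R) (w : R) : Type :=
  Localization.Away (Ideal.Quotient.mk J w)

/-- `R → (R / J)[w⁻¹]` -/
def qL {R : Type} [CommRing R] (J : Ideal R) (w : R) : R →+* QL J w :=
  (algebraMap (R ⧸ J) (QL J w)).comp (Ideal.Quotient.mk J)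

/-- `BP_* E(n+1)` -/
abbrev AA (n : ℕ) : Type := QL (JJ p n) (eta0 p n)

/-- `BP_* BP → BP_* E(n+1)` -/
def qA (n : ℕ) : G0 p →+* AA p n := qL (JJ p n) (eta0 p n)

/-- block FLAT: Landweber flatness -/
def FlatA (n : ℕ) : Prop := ((qA p n).comp C : K0 p →+* AA p n).Flat

/-- row GRA: the grading -/
def GradeA (n : ℕ) : Prop :=
  ∃ (H : ℤ → AddSubgroup (AA p n)) (_ : GradedRing H),
    (∀ (d : ℤ) (x : G0 p), HG p (2 * d) x → qA p n x ∈ H d) ∧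
    ∀ d, ∀ a ∈ H d, ∃ (j : ℕ) (x : G0 p), HG p (2 * (d + j * wz p n)) x ∧
      qA p n (eta0 p n) ^ j * a = qA p n x

/-- row TAU: the idempotent `η ∘ ε` -/
def TauA (n : ℕ) : Prop :=
  ∃ τ : AA p n →+* AA p n,
    (∀ (d : ℤ) (x : G0 p), HG p (2 * d) x → ∃ y, HG p (2 * d) y ∧ τ (qA p n x) = qA p n y) ∧
    (∀ i, τ (qA p n (C (X i))) = qA p n (eta0 p i)) ∧ (∀ k, τ (qA p n (X k)) = 0) ∧
    (∀ a, τ (τ a) = τ a) ∧
    (∀ a, ∃ (m : ℤ) (j : ℕ) (x : MvPolynomial ℕ ℤ), ¬ (p : ℤ) ∣ m ∧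
      qA p n (eta0 p n) ^ j * ((m : AA p n) * τ a) = qA p n (etaZ p x)) ∧
    ∀ x, qA p n (etaZ p x) = 0 ↔ x ∈ Ideal.span (X '' {j | n < j})

/-- row ADA: the assembly of block A -/
def AsmA (n : ℕ) : Prop := Lazard → FlatA p n → GradeA p n → TauA p n → Nonempty (AD p n)

end Vale.Agent.P251EJ
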