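import Vale.Agent.P251EJ.Defs
import Vale.Agent.P251Z.JWDef
import Vale.Agent.P257.H702.HasV

/-!
# P251EJ: existence of the Johnson-Wilson spectra, the statement layer
-/

open CategoryTheory MonoidalCategory

noncomputable section

namespace Vale.Agent.P251EJ

open Vale.Agent.P251 Vale.Agent.P251.S Vale.Agent.P251.M Vale.Agent.P251.I Vale.Agent.P251.St
  Vale.Agent.P257.H702

/-- the goal -/
def Goal (p n : ℕ) : Prop :=
  ∀ (T : SHCat) (S : Susp T), ∃ (E : RingSp T) (o : St.Oriented S E) (φ : P257.St.GHom S p E),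
    P251Z.IsJW p n o φ

/-- row OUT: from the library to the statement layer -/
def OutJW : Prop :=
  ∀ (T : SHCat) (S : Susp T) (p : ℕ) [Fact p.Prime] (n : ℕ) (D : MUData T.C)
    (_ : MUFam (M.lineIso S.toSpaceFunctor) D) (E : RingSp T) (u : D.R ⟶ E.obj) [IsMonHom u]
    (Φ : MvPolynomial ℕ ℤ →+* HRing (stdEven T.C) E.obj), JWMon p n u Φ →
    ∃ (o : St.Oriented S E) (φ : P257.St.GHom S p E), P251Z.IsJW p (n + 1) o φ

/-- row MAIN: the assembly -/
def AsmM : Prop :=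
  ∀ (p : ℕ) [Fact p.Prime] (n : ℕ), (∀ (T : SHCat) (_ : Susp T), Serre T.C) →
    (∀ T : SHCat, OddB T.C) → (∀ T : SHCat, EvenB T.C) → (∀ T : SHCat, HS T.C) →
    (∀ T : SHCat, TraG T.C) → (∀ T : SHCat, IdemG T.C) → OutJW → Nonempty (AD p n) →
    Goal p (n + 1)

end Vale.Agent.P251EJ
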