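import Vale.Agent.P251.M.PiZero
import Vale.Agent.P251.G.CellInst
import Mathlib.Topology.Homotopy.Contractible

/-!
# P251EJ, block S: the positive stable stems are torsion groups

A map `f : Sᵏ → Sⁿ`, `k > n`, becomes null-homotopic in a symmetric product `Z = (Sⁿ)^M / Σ_M`
(`NullS`). For a finite group `G` acting cellularly on `Y` with quotient `Z`, the stable maps out of
`Z₊` are rationally the invariant stable maps out of `Y₊` (`Cov`). All spaces are compact and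
enter with a disjoint base point (`LC.of Y`, `ofCompact`).
-/

open CategoryTheory MonoidalCategory Limits Pretriangulated Set Topology OnePoint

universe v u

noncomputable section

namespace Vale.Agent.P251EJ

open Vale.Agent.P251 Vale.Agent.P251.T Vale.Agent.P251.G Vale.Agent.P251.G.LC
  Vale.Agent.P251.G.Cell Vale.Agent.P251.I

/-! ### category theory -/

section cat

variable {T : Type u} [Category.{v} T] [Preadditive T]

/-- Rationally, the maps out of `Z` are the invariant maps out of `Y`. -/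
structure Cov {G : Type} {Y Z : T} (ρ : G → (Y ⟶ Y)) (q : Y ⟶ Z) : Prop where
  inj : ∀ (V : T) (b : Z ⟶ V), q ≫ b = 0 → ∃ m : ℤ, m ≠ 0 ∧ m • b = 0
  surj : ∀ (V : T) (a : Y ⟶ V), (∀ g, ρ g ≫ a = a) →
    ∃ (m : ℤ) (b : Z ⟶ V), m ≠ 0 ∧ q ≫ b = m • a

/-- `C` is the coproduct of copies of `E` -/
structure IsSum {P : Type} {E C : T} (j : P → (E ⟶ C)) : Prop where
  ext : ∀ (V : T) (a : C ⟶ V), (∀ x, j x ≫ a = 0) → a = 0
  desc : ∀ (V : T) (w : P → (E ⟶ V)), ∃ a : C ⟶ V, ∀ x, j x ≫ a = w x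

variable (T) in
/-- row FREE: permuted summands -/
def FreeS : Prop :=
  ∀ (G P P' : Type) (E C C' : T) (j : P → (E ⟶ C)) (j' : P' → (E ⟶ C')) (ρ : G → (C ⟶ C))
    (q : C ⟶ C') (a : G → P → P) (π : P → P'), IsSum j → IsSum j' →
    (∀ g x, j x ≫ ρ g = j (a g x)) → (∀ x, j x ≫ q = j' (π x)) → Function.Surjective π →
    (∀ x y, π x = π y → ∃ g, y = a g x) → Cov ρ q

variable (T) [HasZeroObject T] [HasShift T ℤ] [∀ n : ℤ, (shiftFunctor T n).Additive]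
  [Pretriangulated T]

/-- row FIVE: the rational five lemma -/
def FiveS : Prop :=
  ∀ (G : Type) [Group G] [Fintype G] (A B C A' B' C' : T) (i : A ⟶ B) (j : B ⟶ C)
    (δ : C ⟶ A⟦(1 : ℤ)⟧) (i' : A' ⟶ B') (j' : B' ⟶ C') (δ' : C' ⟶ A'⟦(1 : ℤ)⟧)
    (ρA : G → (A ⟶ A)) (ρB : G → (B ⟶ B)) (ρC : G → (C ⟶ C)) (qA : A ⟶ A') (qB : B ⟶ B')
    (qC : C ⟶ C'), Triangle.mk i j δ ∈ distTriang T → Triangle.mk i' j' δ' ∈ distTriang T →
    (∀ g h, ρA g ≫ ρA h = ρA (g * h)) → (∀ g h, ρC g ≫ ρC h = ρC (g * h)) →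
    (∀ g, ρA g ≫ i = i ≫ ρB g) → (∀ g, ρB g ≫ j = j ≫ ρC g) →
    (∀ g, ρC g ≫ δ = δ ≫ (ρA g)⟦(1 : ℤ)⟧') → qA ≫ i' = i ≫ qB → qB ≫ j' = j ≫ qC →
    qC ≫ δ' = δ ≫ qA⟦(1 : ℤ)⟧' → (∀ g, ρB g ≫ qB = qB) → (∀ g, ρC g ≫ qC = qC) →
    Cov ρA qA → Cov ρC qC → Cov ρB qB

end cat

/-! ### cells -/

/-- the order simplex `0 ≤ t₀ ≤ ⋯ ≤ t_{d-1} ≤ 1` -/
def ordS (d : ℕ) : Set (Fin d → ℝ) := {t | Monotone t ∧ ∀ i, t i ∈ Icc (0 : ℝ) 1}

/-- row BODY -/
def BodyS : Prop := ∀ d, Convex ℝ (ordS d) ∧ IsCompact (ordS d) ∧ (interior (ordS d)).Nonempty ∧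
  interior (ordS d) = {t | StrictMono t ∧ ∀ i, t i ∈ Ioo (0 : ℝ) 1}

/-- A finite cell structure; `sk d` is the union of the cells of dimension `< d`. -/
structure Cells (Y : Type) [TopologicalSpace Y] where
  N : ℕ
  P : ℕ → Type
  [fin : ∀ d, Fintype (P d)]
  sk : ℕ → Set Y
  sk_zero : sk 0 = ∅
  sk_top : sk N = univ
  mono : ∀ d, sk d ⊆ sk (d + 1)
  c : ∀ d, P d → (Fin d → ℝ) → Y
  cont : ∀ d x, ContinuousOn (c d x) (ordS d)
  bd : ∀ d x, MapsTo (c d x) (frontier (ordS d)) (sk d)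
  inj : ∀ d x y, ∀ s ∈ interior (ordS d), ∀ t ∈ interior (ordS d), c d x s = c d y t → x = y ∧ s = t
  cov : ∀ d, sk (d + 1) \ sk d = ⋃ x, c d x '' interior (ordS d)

attribute [instance] Cells.fin

/-- A cellular right action of `G` on `Y` which permutes the cells, with orbit space `Z`. -/
structure GCells (G Y Z : Type) [Group G] [TopologicalSpace Y] [TopologicalSpace Z]
    extends Cells Y where
  act : G → C(Y, Y)
  act_mul : ∀ g h y, act h (act g y) = act (g * h) y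
  act_sk : ∀ d g y, act g y ∈ sk d ↔ y ∈ sk d
  pact : ∀ d, G → P d → P d
  c_act : ∀ d g x s, c d (pact d g x) s = act g (c d x s)
  q : C(Y, Z)
  q_surj : Function.Surjective q
  q_eq : ∀ y y', q y = q y' ↔ ∃ g, y' = act g y

/-- row TOP: the skeleta and the open strata -/
def TopS : Prop :=
  BodyS → ∀ (Y : Type) [TopologicalSpace Y] [CompactSpace Y] [T2Space Y] (C : Cells Y),
    (∀ d, CellChain univ (C.sk d) (C.sk (d + 1))) ∧ (∀ d, IsClosed (C.sk d)) ∧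
    (∀ (d k : ℕ) (e : Fin k ≃ C.P d),
      IsEmbedding fun z : Fin k × interior (ordS d) => C.c d (e z.1) z.2) ∧
    ∀ d, Nonempty (interior (ordS d) ≃ₜ (Fin d → ℝ))

/-- row QUO: the cells of the orbit space -/
def QuoS : Prop :=
  BodyS → ∀ (G Y Z : Type) [Group G] [TopologicalSpace Y] [TopologicalSpace Z] (C : GCells G Y Z),
    ∃ (C' : Cells Z) (π : ∀ d, C.P d → C'.P d), C'.N = C.N ∧
      (∀ d y, C.q y ∈ C'.sk d ↔ y ∈ C.sk d) ∧ (∀ d x s, C'.c d (π d x) s = C.q (C.c d x s)) ∧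
      (∀ d, Function.Surjective (π d)) ∧ ∀ d x y, π d x = π d y → ∃ g, y = C.pact d g x

/-- the sphere -/
abbrev Sp (n : ℕ) : Type := OnePoint (Fin n → ℝ)

/-- row CHI: the collapse of the boundary of the cube -/
def ChiS : Prop :=
  ∀ n, ∃ (h : ℝ → ℝ) (χ : (Fin n → ℝ) → Sp n), BijOn h (Ioo 0 1) univ ∧
    ContinuousOn χ {t | ∀ i, t i ∈ Icc (0 : ℝ) 1} ∧
    (∀ t, (∀ i, t i ∈ Ioo (0 : ℝ) 1) → χ t = ((fun i => h (t i) : Fin n → ℝ) : Sp n)) ∧
    ∀ t, ¬ (∀ i, t i ∈ Ioo (0 : ℝ) 1) → χ t = ∞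

/-- row SP: the symmetric product -/
def SymS : Prop :=
  ∀ (M : ℕ) (X : Type) [TopologicalSpace X] [CompactSpace X] [T2Space X],
    ∃ (Z : Type) (_ : TopologicalSpace Z) (_ : CompactSpace Z) (_ : T2Space Z)
      (q : C(Fin M → X, Z)), Function.Surjective q ∧
      ∀ y y', q y = q y' ↔ ∃ σ : Equiv.Perm (Fin M), y' = y ∘ σ

/-- row CELL: the cells of the powers of the sphere -/
def CellS : Prop :=
  BodyS → ChiS → ∀ (n M : ℕ) (Z : Type) [TopologicalSpace Z] (q : C(Fin M → Sp n, Z)),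
    Function.Surjective q → (∀ y y', q y = q y' ↔ ∃ σ : Equiv.Perm (Fin M), y' = y ∘ σ) →
    ∃ C : GCells (Equiv.Perm (Fin M)) (Fin M → Sp n) Z, C.q = q ∧ ∀ σ y, C.act σ y = y ∘ σ

/-- the inclusion of the first factor -/
def inc0 (M n : ℕ) : C(Sp n, Fin (M + 1) → Sp n) :=
  ⟨fun x => Function.update (fun _ => ∞) 0 x, continuous_const.update 0 continuous_id⟩

/-- rows NULL: Dold-Thom, the part which is needed -/
def NullS : Prop :=
  ∀ (k n : ℕ), 1 ≤ n → n < k → ∀ f : C(Sp k, Sp n), f ∞ = ∞ → ∃ M : ℕ,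
    ∀ (Z : Type) [TopologicalSpace Z] (q : C(Fin (M + 1) → Sp n, Z)),
      (∀ (σ : Equiv.Perm (Fin (M + 1))) y, q (y ∘ σ) = q y) →
      (q.comp ((inc0 M n).comp f)).Nullhomotopic

/-! ### suspension spectra -/

section susp

variable {T : Type u} [Category.{v} T] [Preadditive T] [HasZeroObject T]
    [HasShift T ℤ] [∀ n : ℤ, (shiftFunctor T n).Additive] [Pretriangulated T]
    [MonoidalCategory T] [SymmetricCategory T] [TensorTriangulated T] (F : SpaceFunctor T)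

/-- the stable map induced by a map of compact spaces -/
def Sm {Y Z : Type} [TopologicalSpace Y] [CompactSpace Y] [T2Space Y] [TopologicalSpace Z]
    [CompactSpace Z] [T2Space Z] (hY : FC (LC.of Y)) (hZ : FC (LC.of Z)) (f : C(Y, Z)) :
    F.S.obj (FCat.mk hY) ⟶ F.S.obj (FCat.mk hZ) :=
  F.S.map (FCat.hom (ofCompact (X := LC.of Y) (Y := LC.of Z) f f.continuous))

/-- row COV: the coinvariants theorem -/
def CovS : Prop :=
  FreeS T → FiveS T → BodyS → TopS → QuoS →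
  ∀ (G Y Z : Type) [Group G] [Fintype G] [TopologicalSpace Y] [CompactSpace Y] [T2Space Y]
    [TopologicalSpace Z] [CompactSpace Z] [T2Space Z] (C : GCells G Y Z),
    ∃ (hY : FC (LC.of Y)) (hZ : FC (LC.of Z)),
      Cov (fun g => Sm F hY hY (C.act g)) (Sm F hY hZ C.q)

/-- the collapse `Y₊ → Sⁿ` of a map `Y → Sⁿ` -/
def toSph {Y : Type} [TopologicalSpace Y] [CompactSpace Y] [T2Space Y] (hY : FC (LC.of Y)) {n : ℕ}
    (f : C(Y, Sp n)) : FCat.mk hY ⟶ SphF n :=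
  FCat.hom (mk' (X := LC.of Y) (Y := Sph n) f f.continuous
    (by rw [Filter.cocompact_eq_bot]; exact Filter.tendsto_bot))

/-- row PLUS: `S (Sᵏ₊) = S (pt₊) ⊕ S (Sᵏ)`, in the form which is needed -/
def PlusS : Prop :=
  ∀ k, ∃ (h1 : FC (LC.of Unit)) (hk : FC (LC.of (Sp k))), ∀ (V : T) (a : F.S.obj (SphF k) ⟶ V)
    (w : F.S.obj (FCat.mk h1) ⟶ V), F.S.map (toSph hk (ContinuousMap.id _)) ≫ a =
      Sm F hk h1 (ContinuousMap.const _ ()) ≫ w → a = 0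

/-- the unstable form of the theorem -/
def TorS : Prop :=
  ∀ (k n : ℕ), 1 ≤ n → n < k → ∀ f : SphF k ⟶ SphF n, ∃ m : ℤ, m ≠ 0 ∧ m • F.S.map f = 0

/-- row FIN -/
def FinS : Prop :=
  (∀ (G Y Z : Type) [Group G] [Fintype G] [TopologicalSpace Y] [CompactSpace Y] [T2Space Y]
    [TopologicalSpace Z] [CompactSpace Z] [T2Space Z] (C : GCells G Y Z),
    ∃ (hY : FC (LC.of Y)) (hZ : FC (LC.of Z)),
      Cov (fun g => Sm F hY hY (C.act g)) (Sm F hY hZ C.q)) →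
  BodyS → ChiS → SymS → CellS → NullS → PlusS F → TorS F

/-- row STAB -/
def StabS : Prop :=
  TorS F → ∀ k : ℤ, 0 < k → ∀ f : (𝟙_ T)⟦k⟧ ⟶ 𝟙_ T, ∃ m : ℤ, m ≠ 0 ∧ m • f = 0

end susp

end Vale.Agent.P251EJ
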