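import Vale.Agent.P251EJ.Defs
import Vale.Agent.P251EJ97.Five
import Vale.Agent.P251EJ41.Body
import Vale.Agent.P251EJ41.Sym
import Vale.Agent.P251EJ51.Top
import Vale.Agent.P251EJ44.Quo
import Vale.Agent.P251EJ9.Chi
import Vale.Agent.P251EJ98.Cell
import Vale.Agent.P251EJ15.Null
import Vale.Agent.P251EJ52.Plus
import Vale.Agent.P251EJ6.Fin
import Vale.Agent.P251EJ99.Stab
import Vale.Agent.P251EJ93.Cov

/-!
# P251EJ, block S: Serre's theorem
-/

open CategoryTheory MonoidalCategory Limits Pretriangulated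

set_option linter.unusedSectionVars false

universe u

namespace Vale.Agent.P251EJ

open Vale.Agent.P251 Vale.Agent.P251.T Vale.Agent.P251.I

variable {𝒯 : Type u} [Category.{0} 𝒯] [Preadditive 𝒯] [HasZeroObject 𝒯]
    [HasShift 𝒯 ℤ] [∀ n : ℤ, (shiftFunctor 𝒯 n).Additive] [Pretriangulated 𝒯] [IsTriangulated 𝒯]
    [MonoidalCategory 𝒯] [SymmetricCategory 𝒯] [TensorTriangulated 𝒯] [MonoidalClosed 𝒯]
    [HasCoproducts.{0} 𝒯] [HasProducts.{0} 𝒯] [StableCat 𝒯]

/-- **Serre**: the positive stable stems are torsion groups. -/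
theorem serre (F : SpaceFunctor 𝒯) : Serre 𝒯 :=
  P251EJ99.stabS F (P251EJ6.finS F
    (P251EJ93.covS F (P251EJ97.freeS 𝒯) (P251EJ97.fiveS 𝒯) P251EJ41.body P251EJ51.topS
      P251EJ44.quoS)
    P251EJ41.body P251EJ9.chiS P251EJ41.symS P251EJ98.cellS P251EJ15.nullS (P251EJ52.plusS F))

end Vale.Agent.P251EJ
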